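import Mathlib

/-!
Borsuk: geometric core. From a symmetric matrix `G` with `G * G = 24 G` and trace `1560`, two
eigenvectors spanning a plane, and a vertex set with clique number at most 5 and more than 320
elements we build a subset of `EuclideanSpace ℝ (Fin 63)` that needs more than 64 parts.
-/

namespace Vale.Agent.Lib.P052

open scoped InnerProductSpace RealInnerProductSpace Matrix

/-- The pigeonhole step. -/
theorem not_cover_of_points {X : Type} [PseudoMetricSpace X] {ι : Type} [DecidableEq ι]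
    (M : Finset ι) (pt : ι → X) (D : ℝ) (hD : 0 < D) (adj : ι → ι → Prop)
    (hfar : ∀ a ∈ M, ∀ b ∈ M, a ≠ b →
      (¬ adj a b → dist (pt a) (pt b) = D) ∧ (adj a b → dist (pt a) (pt b) < D))
    (hcl : ∀ S : Finset ι, S ⊆ M → S.card = 6 → ∃ a ∈ S, ∃ b ∈ S, a ≠ b ∧ ¬ adj a b)
    (k : ℕ) (hcard : k * 5 < M.card) (h6 : 6 ≤ M.card) :
    Bornology.IsBounded (pt '' (M : Set ι)) ∧ 0 < Metric.diam (pt '' (M : Set ι)) ∧
      ¬ ∃ P : Fin k → Set X, (⋃ i, P i) = pt '' (M : Set ι) ∧
        ∀ i, Metric.diam (P i) < Metric.diam (pt '' (M : Set ι)) := by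
  have hb : Bornology.IsBounded (pt '' (M : Set ι)) :=
    (M.finite_toSet.image pt).isBounded
  have hle : Metric.diam (pt '' (M : Set ι)) ≤ D := by
    apply Metric.diam_le_of_forall_dist_le hD.le
    rintro _ ⟨a, ha, rfl⟩ _ ⟨b, hb', rfl⟩
    by_cases hab : a = b
    · subst hab; simpa using hD.le
    · by_cases hadj : adj a b
      · exact ((hfar a ha b hb' hab).2 hadj).le
      · exact ((hfar a ha b hb' hab).1 hadj).le
  have hge : D ≤ Metric.diam (pt '' (M : Set ι)) := by
    obtain ⟨S, hS, hc⟩ := Finset.exists_subset_card_eq h6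
    obtain ⟨a, ha, b, hb', hab, hn⟩ := hcl S hS hc
    have h1 := (hfar a (hS ha) b (hS hb') hab).1 hn
    rw [← h1]
    exact Metric.dist_le_diam_of_mem hb (Set.mem_image_of_mem _ (hS ha))
      (Set.mem_image_of_mem _ (hS hb'))
  have hdiam : Metric.diam (pt '' (M : Set ι)) = D := le_antisymm hle hge
  refine ⟨hb, by rw [hdiam]; exact hD, ?_⟩
  rintro ⟨P, hP, hlt⟩
  have hmem : ∀ a : {a // a ∈ M}, ∃ i, pt a.1 ∈ P i := by
    intro a
    have : pt a.1 ∈ ⋃ i, P i := by
      rw [hP]; exact Set.mem_image_of_mem _ a.2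
    simpa using this
  choose f hf using hmem
  have hcard' : (Finset.univ : Finset (Fin k)).card * 5 < (M.attach).card := by
    simpa using hcard
  obtain ⟨i, -, hi⟩ := Finset.exists_lt_card_fiber_of_mul_lt_card_of_maps_to
    (s := M.attach) (t := Finset.univ) (f := f) (fun _ _ => Finset.mem_univ _) hcard'
  let F := (M.attach.filter fun x => f x = i).image Subtype.val
  have hFc : F.card = (M.attach.filter fun x => f x = i).card :=
    Finset.card_image_of_injective _ Subtype.val_injective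
  have h6' : 6 ≤ F.card := by omega
  obtain ⟨S, hS, hc⟩ := Finset.exists_subset_card_eq h6'
  have hSM : S ⊆ M := by
    intro a ha
    have := hS ha
    simp only [F, Finset.mem_image, Finset.mem_filter] at this
    obtain ⟨x, _, rfl⟩ := this
    exact x.2
  obtain ⟨a, ha, b, hb', hab, hn⟩ := hcl S hSM hc
  have hpi : ∀ c ∈ S, pt c ∈ P i := by
    intro c hc'
    have := hS hc'
    simp only [F, Finset.mem_image, Finset.mem_filter] at this
    obtain ⟨x, ⟨_, hx⟩, rfl⟩ := this
    rw [← hx]; exact hf x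
  have hsub : P i ⊆ pt '' (M : Set ι) := by
    rw [← hP]; exact Set.subset_iUnion P i
  have h1 := (hfar a (hSM ha) b (hSM hb') hab).1 hn
  have h2 : dist (pt a) (pt b) ≤ Metric.diam (P i) :=
    Metric.dist_le_diam_of_mem (hb.subset hsub) (hpi a ha) (hpi b hb')
  have h3 := hlt i
  rw [hdiam] at h3
  linarith

section core

variable {ι : Type} [Fintype ι]

theorem ip_toLp (f g : ι → ℝ) :
    ⟪(WithLp.toLp 2 f : EuclideanSpace ℝ ι), (WithLp.toLp 2 g : EuclideanSpace ℝ ι)⟫_ℝ = f ⬝ᵥ g := by
  simp [PiLp.inner_apply, dotProduct, mul_comm]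

variable [DecidableEq ι]

/-- Range of the projection has dimension given by the trace. -/
theorem finrank_range_eq (G : Matrix ι ι ℝ) (hsq : G * G = (24:ℝ) • G) (c : ℕ)
    (htr : G.trace = 24 * c) :
    Module.finrank ℝ (LinearMap.range (Matrix.toEuclideanLin ((1/24:ℝ) • G))) = c := by
  set f := Matrix.toEuclideanLin ((1/24:ℝ) • G) with hf
  have hid : IsIdempotentElem f := by
    have hM : ((1/24:ℝ) • G) * ((1/24:ℝ) • G) = (1/24:ℝ) • G := by
      rw [Matrix.smul_mul, Matrix.mul_smul, hsq, smul_smul, smul_smul]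
      norm_num
    unfold IsIdempotentElem
    apply LinearMap.ext
    intro v
    simp only [Module.End.mul_apply, hf, Matrix.toEuclideanLin_apply, Matrix.mulVec_mulVec, hM]
  have hproj := LinearMap.IsIdempotentElem.isProj_range f hid
  have htrace := hproj.trace
  have h2 : LinearMap.trace ℝ (EuclideanSpace ℝ ι) f = (c : ℝ) := by
    rw [hf, Matrix.toEuclideanLin_eq_toLin_orthonormal, Matrix.trace_toLin_eq,
      Matrix.trace_smul, htr]
    simp
  rw [h2] at htrace
  exact_mod_cast htrace.symm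

/-- The main geometric statement. -/
theorem core
    (G : Matrix ι ι ℝ) (hsym : G.transpose = G) (hsq : G * G = (24:ℝ) • G)
    (htr : G.trace = 24 * (65 : ℕ))
    (n1 n2 : ι → ℝ) (h1 : G.mulVec n1 = (24:ℝ) • n1) (h2 : G.mulVec n2 = (24:ℝ) • n2)
    (h11 : n1 ⬝ᵥ n1 = 64) (h22 : n2 ⬝ᵥ n2 = 64) (h12 : n1 ⬝ᵥ n2 = 32)
    (M : Finset ι) (x : ι) (hx : x ∈ M) (hx1 : n1 x = 1) (hx2 : n2 x = 0)
    (hZ : ∀ z ∈ M, z ≠ x → n1 z = 0 ∧ n2 z = 0)
    (adj : ι → ι → Prop)
    (hdiag : ∀ a ∈ M, G a a = 15/4)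
    (hG : ∀ a ∈ M, ∀ b ∈ M, a ≠ b → (adj a b → G a b = 3/4) ∧ (¬ adj a b → G a b = -1/4))
    (hcl : ∀ S : Finset ι, S ⊆ M → S.card = 6 → ∃ a ∈ S, ∃ b ∈ S, a ≠ b ∧ ¬ adj a b)
    (hcard : 64 * 5 < M.card) :
    ∃ Y : Set (EuclideanSpace ℝ (Fin 63)), Bornology.IsBounded Y ∧ 0 < Metric.diam Y ∧
      ¬ ∃ P : Fin 64 → Set (EuclideanSpace ℝ (Fin 63)),
        (⋃ i, P i) = Y ∧ ∀ i, Metric.diam (P i) < Metric.diam Y := by
  classical
  -- the vectors
  let pv : ι → EuclideanSpace ℝ ι := fun i => WithLp.toLp 2 (fun j => G i j)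
  let nv1 : EuclideanSpace ℝ ι := WithLp.toLp 2 n1
  let nv2 : EuclideanSpace ℝ ι := WithLp.toLp 2 n2
  -- inner products
  have ipp : ∀ i j, ⟪pv i, pv j⟫_ℝ = 24 * G i j := by
    intro i j
    have : ⟪pv i, pv j⟫_ℝ = (fun k => G i k) ⬝ᵥ (fun k => G j k) := ip_toLp _ _
    rw [this]
    have h3 : (fun k => G i k) ⬝ᵥ (fun k => G j k) = (G * G) i j := by
      rw [Matrix.mul_apply]
      simp only [dotProduct]
      apply Finset.sum_congr rfl
      intro k _
      have : G j k = G k j := by
        have := congrFun (congrFun hsym k) j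
        simpa [Matrix.transpose_apply] using this
      rw [this]
    rw [h3, hsq]
    simp
  have ipn : ∀ (n : ι → ℝ), G.mulVec n = (24:ℝ) • n → ∀ i,
      ⟪(WithLp.toLp 2 n : EuclideanSpace ℝ ι), pv i⟫_ℝ = 24 * n i := by
    intro n hn i
    have : ⟪(WithLp.toLp 2 n : EuclideanSpace ℝ ι), pv i⟫_ℝ = n ⬝ᵥ (fun k => G i k) := ip_toLp _ _
    rw [this, dotProduct_comm]
    have h3 := congrFun hn i
    simpa [Matrix.mulVec, dotProduct] using h3
  have ip11 : ⟪nv1, nv1⟫_ℝ = 64 := by rw [← h11]; exact ip_toLp _ _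
  have ip22 : ⟪nv2, nv2⟫_ℝ = 64 := by rw [← h22]; exact ip_toLp _ _
  have ip12 : ⟪nv1, nv2⟫_ℝ = 32 := by rw [← h12]; exact ip_toLp _ _
  have ip21 : ⟪nv2, nv1⟫_ℝ = 32 := by rw [real_inner_comm]; exact ip12
  have ip1p : ∀ i, ⟪nv1, pv i⟫_ℝ = 24 * n1 i := ipn n1 h1
  have ip2p : ∀ i, ⟪nv2, pv i⟫_ℝ = 24 * n2 i := ipn n2 h2
  -- the range
  set f := Matrix.toEuclideanLin ((1/24:ℝ) • G) with hf
  set S := LinearMap.range f with hS
  have hSrank : Module.finrank ℝ S = 65 := finrank_range_eq G hsq 65 htr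
  have hpvS : ∀ i, pv i ∈ S := by
    intro i
    refine ⟨pv i, ?_⟩
    rw [hf, Matrix.toEuclideanLin_apply]
    congr 1
    funext j
    have h3 : (G * G) j i = 24 * G j i := by rw [hsq]; simp
    have h4 : ((1/24:ℝ) • G).mulVec (fun k => G i k) j = (1/24) * (G * G) j i := by
      rw [Matrix.mul_apply]
      simp only [Matrix.mulVec, dotProduct, Matrix.smul_apply, smul_eq_mul, Finset.mul_sum]
      apply Finset.sum_congr rfl
      intro k _
      have : G i k = G k i := by
        have := congrFun (congrFun hsym k) i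
        simpa [Matrix.transpose_apply] using this
      rw [this]; ring
    have h5 : G j i = G i j := by
      have := congrFun (congrFun hsym j) i
      simpa [Matrix.transpose_apply] using this.symm
    show ((1/24:ℝ) • G).mulVec (fun k => G i k) j = G i j
    rw [h4, h3, h5]; ring
  have hnvS : ∀ n : ι → ℝ, G.mulVec n = (24:ℝ) • n →
      (WithLp.toLp 2 n : EuclideanSpace ℝ ι) ∈ S := by
    intro n hn
    refine ⟨WithLp.toLp 2 n, ?_⟩
    rw [hf, Matrix.toEuclideanLin_apply]
    congr 1
    rw [Matrix.smul_mulVec, hn, smul_smul]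
    norm_num
  -- the plane
  let T : Submodule ℝ (EuclideanSpace ℝ ι) := Submodule.span ℝ (Set.range ![nv1, nv2])
  have hTS : T ≤ S := by
    rw [Submodule.span_le]
    rintro _ ⟨i, rfl⟩
    fin_cases i
    · exact hnvS n1 h1
    · exact hnvS n2 h2
  have hLI : LinearIndependent ℝ ![nv1, nv2] := by
    rw [LinearIndependent.pair_iff]
    intro s t hst
    have e1 : ⟪nv1, s • nv1 + t • nv2⟫_ℝ = 0 := by rw [hst]; simp
    have e2 : ⟪nv2, s • nv1 + t • nv2⟫_ℝ = 0 := by rw [hst]; simp
    rw [inner_add_right, real_inner_smul_right, real_inner_smul_right, ip11, ip12] at e1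
    rw [inner_add_right, real_inner_smul_right, real_inner_smul_right, ip21, ip22] at e2
    constructor <;> linarith
  have hTrank : Module.finrank ℝ T = 2 := by
    have := finrank_span_eq_card hLI
    simpa using this
  let W : Submodule ℝ (EuclideanSpace ℝ ι) := Tᗮ ⊓ S
  have hWrank : Module.finrank ℝ W = 63 := by
    have h3 : Module.finrank ℝ T + Module.finrank ℝ W = Module.finrank ℝ S :=
      Submodule.finrank_add_inf_finrank_orthogonal hTS
    omega
  have hWmem : ∀ v : EuclideanSpace ℝ ι, v ∈ S → ⟪nv1, v⟫_ℝ = 0 → ⟪nv2, v⟫_ℝ = 0 → v ∈ W := by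
    intro v hv h1' h2'
    refine ⟨?_, hv⟩
    show v ∈ Tᗮ
    rw [Submodule.mem_orthogonal]
    intro y hy
    induction hy using Submodule.span_induction with
    | mem y hy =>
      obtain ⟨i, rfl⟩ := hy
      fin_cases i
      · exact h1'
      · exact h2'
    | zero => simp
    | add a b _ _ ha hb => rw [inner_add_left, ha, hb]; simp
    | smul c a _ ha => rw [real_inner_smul_left, ha]; simp
  -- the extra point
  let u : EuclideanSpace ℝ ι := pv x - (1/2:ℝ) • nv1 + (1/4:ℝ) • nv2
  have hGxx : G x x = 15/4 := hdiag x hx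
  have hu1 : ⟪nv1, u⟫_ℝ = 0 := by
    simp only [u, inner_add_right, inner_sub_right, real_inner_smul_right]
    rw [ip1p, ip11, ip12, hx1]; norm_num
  have hu2 : ⟪nv2, u⟫_ℝ = 0 := by
    simp only [u, inner_add_right, inner_sub_right, real_inner_smul_right]
    rw [ip2p, ip21, ip22, hx2]; norm_num
  have huS : u ∈ S := by
    apply S.add_mem (S.sub_mem (hpvS x) (S.smul_mem _ (hnvS n1 h1))) (S.smul_mem _ (hnvS n2 h2))
  have hup : ∀ b, ⟪u, pv b⟫_ℝ = 24 * G x b - 12 * n1 b + 6 * n2 b := by
    intro b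
    simp only [u, inner_add_left, inner_sub_left, real_inner_smul_left]
    rw [ipp, ip1p, ip2p]
    simp; ring
  have huu : ⟪u, u⟫_ℝ = 78 := by
    have h3 : ⟪u, u⟫_ℝ = ⟪u, pv x⟫_ℝ - (1/2) * ⟪u, nv1⟫_ℝ + (1/4) * ⟪u, nv2⟫_ℝ := by
      conv_lhs => rw [show u = pv x - (1/2:ℝ) • nv1 + (1/4:ℝ) • nv2 from rfl]
      simp only [inner_add_right, inner_sub_right, real_inner_smul_right]
      rfl
    rw [h3, hup, real_inner_comm, hu1, real_inner_comm, hu2, hGxx, hx1, hx2]
    norm_num
  -- the scaling factor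
  obtain ⟨μ, hμ0, hμ⟩ : ∃ μ : ℝ, 0 < μ ∧ 13 * μ ^ 2 + 2 * μ = 17 := by
    have h222 : Real.sqrt 222 ^ 2 = 222 := Real.sq_sqrt (by norm_num)
    have h1lt : 1 < Real.sqrt 222 := by
      rw [show (1:ℝ) = Real.sqrt 1 by simp]
      exact Real.sqrt_lt_sqrt (by norm_num) (by norm_num)
    refine ⟨(-1 + Real.sqrt 222) / 13, div_pos (by linarith) (by norm_num), ?_⟩
    have : (-1 + Real.sqrt 222) ^ 2 = 223 - 2 * Real.sqrt 222 := by nlinarith [h222]
    field_simp
    nlinarith [this]
  -- the points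
  let w : ι → EuclideanSpace ℝ ι := fun a => if a = x then μ • u else pv a
  have hwW : ∀ a ∈ M, w a ∈ W := by
    intro a ha
    by_cases hax : a = x
    · simp only [w, hax, if_true]
      apply hWmem _ (S.smul_mem _ huS)
      · rw [real_inner_smul_right, hu1]; simp
      · rw [real_inner_smul_right, hu2]; simp
    · simp only [w, hax, if_false]
      obtain ⟨h1', h2'⟩ := hZ a ha hax
      apply hWmem _ (hpvS a)
      · rw [ip1p, h1']; simp
      · rw [ip2p, h2']; simp
  have hpos192 : (0:ℝ) < Real.sqrt 192 := Real.sqrt_pos.2 (by norm_num)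
  -- squared distances
  have hd : ∀ a ∈ M, ∀ b ∈ M, a ≠ b →
      (¬ adj a b → ‖w a - w b‖ ^ 2 = 192) ∧ (adj a b → ‖w a - w b‖ ^ 2 < 192) := by
    -- one endpoint is the extra point
    have hxb : ∀ b ∈ M, b ≠ x →
        (¬ adj x b → ‖μ • u - pv b‖ ^ 2 = 192) ∧ (adj x b → ‖μ • u - pv b‖ ^ 2 < 192) := by
      intro b hb hbx
      have hGbb := hdiag b hb
      obtain ⟨hb1, hb2⟩ := hZ b hb hbx
      have hbase : ‖μ • u - pv b‖ ^ 2 = μ ^ 2 * 78 - 2 * μ * (24 * G x b) + 24 * (15/4) := by
        rw [norm_sub_sq_real, norm_smul, mul_pow, Real.norm_eq_abs, sq_abs,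
          ← real_inner_self_eq_norm_sq u, huu, real_inner_smul_left, hup, hb1, hb2,
          ← real_inner_self_eq_norm_sq (pv b), ipp, hGbb]
        ring
      have hne : x ≠ b := fun h => hbx h.symm
      obtain ⟨hg1, hg2⟩ := hG x hx b hb hne
      constructor
      · intro hn
        rw [hbase, hg2 hn]
        nlinarith [hμ]
      · intro hy
        rw [hbase, hg1 hy]
        nlinarith [hμ, hμ0]
    intro a ha b hb hab
    by_cases hax : a = x
    · subst hax
      have hbx : b ≠ a := fun h => hab h.symm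
      simp only [w, if_true, hbx, if_false]
      exact hxb b hb hbx
    · by_cases hbx : b = x
      · subst hbx
        simp only [w, if_true, hax, if_false]
        rw [norm_sub_rev]
        obtain ⟨hA, hB⟩ := hxb a ha hax
        have hG1 := hG a ha b hb hab
        have hG2 := hG b hb a ha (Ne.symm hab)
        have hsymab : G a b = G b a := by
          have := congrFun (congrFun hsym a) b
          simpa [Matrix.transpose_apply] using this.symm
        -- adjacency is read off from the value of `G`, in both orders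
        have hadj_iff : adj a b ↔ adj b a := by
          constructor
          · intro h
            by_contra hc
            have := hG1.1 h
            have := hG2.2 hc
            linarith
          · intro h
            by_contra hc
            have := hG2.1 h
            have := hG1.2 hc
            linarith
        constructor
        · intro hn
          exact hA (fun h => hn (hadj_iff.2 h))
        · intro hy
          exact hB (hadj_iff.1 hy)
      · simp only [w, hax, hbx, if_false]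
        have hbase : ‖pv a - pv b‖ ^ 2 = 24 * (15/4) - 2 * (24 * G a b) + 24 * (15/4) := by
          rw [norm_sub_sq_real, ← real_inner_self_eq_norm_sq (pv a), ← real_inner_self_eq_norm_sq (pv b),
            ipp, ipp, ipp, hdiag a ha, hdiag b hb]
        obtain ⟨hg1, hg2⟩ := hG a ha b hb hab
        constructor
        · intro hn; rw [hbase, hg2 hn]; norm_num
        · intro hy; rw [hbase, hg1 hy]; norm_num
  -- transfer to dimension 63
  haveI : FiniteDimensional ℝ W := inferInstance
  let e : W ≃ₗᵢ[ℝ] EuclideanSpace ℝ (Fin 63) :=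
    ((stdOrthonormalBasis ℝ W).reindex (finCongr hWrank)).repr
  let pt : ι → EuclideanSpace ℝ (Fin 63) := fun a =>
    if h : a ∈ M then e ⟨w a, hwW a h⟩ else 0
  have hpt : ∀ a ∈ M, ∀ b ∈ M, dist (pt a) (pt b) = ‖w a - w b‖ := by
    intro a ha b hb
    simp only [pt, ha, hb, dif_pos]
    rw [e.dist_map, Subtype.dist_eq, dist_eq_norm]
  have h6 : 6 ≤ M.card := by omega
  refine ⟨pt '' (M : Set ι), not_cover_of_points M pt (Real.sqrt 192) hpos192 adj ?_ hcl 64 hcard h6⟩
  intro a ha b hb hab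
  rw [hpt a ha b hb]
  obtain ⟨h3, h4⟩ := hd a ha b hb hab
  constructor
  · intro hn
    rw [← h3 hn, Real.sqrt_sq (norm_nonneg _)]
  · intro hy
    rw [← Real.sqrt_sq (norm_nonneg (w a - w b))]
    exact Real.sqrt_lt_sqrt (by positivity) (h4 hy)

end core

end Vale.Agent.Lib.P052
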