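import Vale.Agent.Lib.P052.Graph
import Vale.Agent.Lib.P052.Geometry

/-!
Assembling the Borsuk example in dimension 63.
-/

namespace Vale.Agent.Lib.P052

open Matrix

/-- Adjacency matrix. -/
noncomputable def Bm : Matrix (Fin 416) (Fin 416) ℝ := Matrix.of fun i j => (adjN i j : ℝ)

/-- All ones matrix. -/
noncomputable def Jm : Matrix (Fin 416) (Fin 416) ℝ := Matrix.of fun _ _ => 1

/-- The matrix `A + 4 I - J / 4`. -/
noncomputable def Gm : Matrix (Fin 416) (Fin 416) ℝ := (4:ℝ) • 1 + Bm - (1/4:ℝ) • Jm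

theorem sum_fin (f : ℕ → ℝ) : ∑ k : Fin 416, f k = ∑ k ∈ Finset.range 416, f k :=
  Fin.sum_univ_eq_sum_range f 416

theorem hBB : Bm * Bm = (80:ℝ) • 1 + (16:ℝ) • Bm + (20:ℝ) • Jm := by
  ext i j
  simp only [Bm, Jm, Matrix.mul_apply, Matrix.of_apply, Matrix.add_apply, Matrix.smul_apply,
    smul_eq_mul, Matrix.one_apply, mul_one]
  rw [sum_fin (fun k => (adjN i k : ℝ) * (adjN k j : ℝ))]
  have h := adj_sq i.2 j.2
  have h2 : ∑ k ∈ Finset.range 416, (adjN i k : ℝ) * (adjN k j : ℝ) =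
      (((if (j:ℕ) = i then 80 else 0) + 16 * adjN i j + 20 : ℕ) : ℝ) := by
    rw [← h]; push_cast; rfl
  rw [h2]
  by_cases hij : i = j
  · subst hij; simp
  · have : ¬ ((j:ℕ) = i) := fun h => hij (Fin.ext h.symm)
    simp [hij, this]

theorem hdeg (i : Fin 416) : ∑ k : Fin 416, (adjN i k : ℝ) = 100 := by
  rw [sum_fin (fun k => (adjN i k : ℝ))]
  have h := adj_deg i.2
  have h2 : ∑ k ∈ Finset.range 416, (adjN i k : ℝ) = ((∑ k ∈ Finset.range 416, adjN i k : ℕ) : ℝ) := by
    push_cast; rfl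
  rw [h2, h]; norm_num

theorem hBJ : Bm * Jm = (100:ℝ) • Jm := by
  ext i j
  simp only [Bm, Jm, Matrix.mul_apply, Matrix.of_apply, Matrix.smul_apply, smul_eq_mul, mul_one]
  exact hdeg i

theorem hJB : Jm * Bm = (100:ℝ) • Jm := by
  ext i j
  simp only [Bm, Jm, Matrix.mul_apply, Matrix.of_apply, Matrix.smul_apply, smul_eq_mul, mul_one,
    one_mul]
  rw [← hdeg j]
  apply Finset.sum_congr rfl
  intro k _
  rw [adjN_symm k.2 j.2]

theorem hJJ : Jm * Jm = (416:ℝ) • Jm := by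
  ext i j
  simp [Jm, Matrix.mul_apply]

theorem Bm_symm : Bm.transpose = Bm := by
  ext i j
  simp only [Bm, Matrix.transpose_apply, Matrix.of_apply]
  rw [adjN_symm j.2 i.2]

theorem Gm_symm : Gm.transpose = Gm := by
  have hJ : Jm.transpose = Jm := by ext i j; simp [Jm]
  simp only [Gm, Matrix.transpose_add, Matrix.transpose_sub, Matrix.transpose_smul,
    Matrix.transpose_one, Bm_symm, hJ]

theorem Gm_sq : Gm * Gm = (24:ℝ) • Gm := by
  simp only [Gm, add_mul, sub_mul, mul_add, mul_sub, smul_mul_assoc, mul_smul_comm, one_mul,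
    mul_one, smul_add, smul_sub, smul_smul]
  rw [hBB, hBJ, hJB, hJJ]
  ext i j
  simp only [Matrix.add_apply, Matrix.sub_apply, Matrix.smul_apply, smul_eq_mul]
  ring

theorem Gm_trace : Gm.trace = 24 * (65 : ℕ) := by
  have h1 : ∀ i : Fin 416, Gm i i = 15 / 4 := by
    intro i
    simp only [Gm, Matrix.add_apply, Matrix.sub_apply, Matrix.smul_apply, smul_eq_mul,
      Matrix.one_apply_eq, Bm, Jm, Matrix.of_apply, adjN_irr i.2]
    norm_num
  simp only [Matrix.trace, Matrix.diag_apply, h1]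
  simp
  norm_num

/-- The vector with positive part `p` and negative part `m`. -/
noncomputable def nv (p m : ℕ) (i : Fin 416) : ℝ := (bitN p i : ℝ) - (bitN m i : ℝ)

theorem bit_sq (a w : ℕ) : (bitN a w : ℝ) * (bitN a w : ℝ) = (bitN a w : ℝ) := by
  have := bitN_le a w
  interval_cases h : bitN a w <;> simp

theorem cnt_real (a b : ℕ) :
    ∑ k : Fin 416, (bitN a k : ℝ) * (bitN b k : ℝ) = (cntAnd a b 416 : ℝ) := by
  rw [sum_fin (fun k => (bitN a k : ℝ) * (bitN b k : ℝ)), cntAnd_eq]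
  push_cast
  rfl

theorem sum_bit_real (a : ℕ) : ∑ k : Fin 416, (bitN a k : ℝ) = (cntAnd a a 416 : ℝ) := by
  rw [← cnt_real]
  apply Finset.sum_congr rfl
  intro k _
  rw [bit_sq]

theorem nv_dot (p m p' m' : ℕ) : nv p m ⬝ᵥ nv p' m' =
    (cntAnd p p' 416 : ℝ) + (cntAnd m m' 416 : ℝ) - (cntAnd p m' 416 : ℝ) - (cntAnd m p' 416 : ℝ) := by
  rw [← cnt_real, ← cnt_real, ← cnt_real, ← cnt_real]
  simp only [dotProduct, nv, ← Finset.sum_add_distrib, ← Finset.sum_sub_distrib]
  apply Finset.sum_congr rfl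
  intro k _
  ring

theorem Gm_eig {p m : ℕ} (hp : packAux p 416 = p) (hm : packAux m 416 = m)
    (h : Nat.beq (sumRow rowP p 416 + 20 * m) (sumRow rowP m 416 + 20 * p) = true)
    (hc : cntAnd p p 416 = cntAnd m m 416) :
    Gm.mulVec (nv p m) = (24:ℝ) • nv p m := by
  have hJv : Jm.mulVec (nv p m) = 0 := by
    ext i
    simp only [Matrix.mulVec, dotProduct, Jm, Matrix.of_apply, one_mul, nv, Pi.zero_apply,
      Finset.sum_sub_distrib, sum_bit_real, hc, sub_self]
  have hBv : Bm.mulVec (nv p m) = (20:ℝ) • nv p m := by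
    ext i
    have h1 := eig_digits hp hm h i i.2
    have h2 : ∑ k : Fin 416, (bitN p k : ℝ) * (adjN k i : ℝ) + 20 * (bitN m i : ℝ) =
        ∑ k : Fin 416, (bitN m k : ℝ) * (adjN k i : ℝ) + 20 * (bitN p i : ℝ) := by
      rw [sum_fin (fun k => (bitN p k : ℝ) * (adjN k i : ℝ)),
        sum_fin (fun k => (bitN m k : ℝ) * (adjN k i : ℝ))]
      exact_mod_cast h1
    simp only [Matrix.mulVec, dotProduct, Bm, Matrix.of_apply, nv, Pi.smul_apply, smul_eq_mul,
      mul_sub, Finset.sum_sub_distrib]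
    have e1 : ∀ a : ℕ, ∑ k : Fin 416, (adjN i k : ℝ) * (bitN a k : ℝ) =
        ∑ k : Fin 416, (bitN a k : ℝ) * (adjN k i : ℝ) := by
      intro a
      apply Finset.sum_congr rfl
      intro k _
      rw [adjN_symm i.2 k.2, mul_comm]
    rw [e1, e1]
    linarith
  simp only [Gm, Matrix.sub_mulVec, Matrix.add_mulVec, Matrix.smul_mulVec, Matrix.one_mulVec, hJv,
    hBv]
  ext i
  simp only [Pi.sub_apply, Pi.add_apply, Pi.smul_apply, smul_eq_mul, Pi.zero_apply]
  ring

/-- The section together with the extra vertex. -/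
def Mset : Finset (Fin 416) := Finset.univ.filter fun v => dataMask.testBit (9 * (v : ℕ)) = true

theorem Mset_card : Mset.card = 321 := by
  rw [← cnt_mask, cntAnd_eq,
    ← Fin.sum_univ_eq_sum_range (fun w => bitN dataMask w * bitN dataMask w) 416,
    Mset, Finset.card_filter]
  apply Finset.sum_congr rfl
  intro k _
  unfold bitN
  cases dataMask.testBit (9 * (k : ℕ)) <;> simp

/-- The theorem for dimension 63. -/
theorem dim63 : ∃ Y : Set (EuclideanSpace ℝ (Fin 63)), Bornology.IsBounded Y ∧ 0 < Metric.diam Y ∧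
      ¬ ∃ P : Fin 64 → Set (EuclideanSpace ℝ (Fin 63)),
        (⋃ i, P i) = Y ∧ ∀ i, Metric.diam (P i) < Metric.diam Y := by
  let x : Fin 416 := ⟨0, by norm_num⟩
  refine core Gm Gm_symm Gm_sq Gm_trace (nv dataN1p dataN1m) (nv dataN2p dataN2m)
    (Gm_eig check_p1 check_m1 check_eig1 (by rw [cnt_p1p1, cnt_m1m1]))
    (Gm_eig check_p2 check_m2 check_eig2 (by rw [cnt_p2p2, cnt_m2m2])) ?_ ?_ ?_ Mset x ?_ ?_ ?_ ?_
    (fun a b => adjN a b = 1) ?_ ?_ ?_ ?_
  · rw [nv_dot, cnt_p1p1, cnt_m1m1, cnt_p1m1, cnt_m1p1]; norm_num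
  · rw [nv_dot, cnt_p2p2, cnt_m2m2, cnt_p2m2, cnt_m2p2]; norm_num
  · rw [nv_dot]
    have e1 : ((cntAnd dataN1p dataN2p 416 : ℕ) : ℝ) + (cntAnd dataN1m dataN2m 416 : ℕ) = 32 := by
      exact_mod_cast cnt_12a
    have e2 : ((cntAnd dataN1p dataN2m 416 : ℕ) : ℝ) + (cntAnd dataN1m dataN2p 416 : ℕ) = 0 := by
      exact_mod_cast cnt_12b
    linarith
  · have : dataMask.testBit (9 * ((x : Fin 416) : ℕ)) = true := x_mask
    simpa [Mset] using this
  · have h1 : bitN dataN1p (x : Fin 416) = 1 := (bitN_eq_one_iff _ _).2 x_p1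
    have h2 : bitN dataN1m (x : Fin 416) = 0 := (bitN_eq_zero_iff _ _).2 x_m1
    simp only [nv, h1, h2]; norm_num
  · have h1 : bitN dataN2p (x : Fin 416) = 0 := (bitN_eq_zero_iff _ _).2 x_p2
    have h2 : bitN dataN2m (x : Fin 416) = 0 := (bitN_eq_zero_iff _ _).2 x_m2
    simp only [nv, h1, h2]; norm_num
  · intro z hz hzx
    have hz' : dataMask.testBit (9 * (z : ℕ)) = true := by simpa [Mset] using hz
    have hne : (z : ℕ) ≠ 0 := fun h => hzx (Fin.ext h)
    have h := allBelow_spec _ 416 check_Z z z.2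
    simp only [Bool.or_eq_true, Bool.and_eq_true, Bool.not_eq_true'] at h
    rcases h with (h | h) | h
    · exact absurd (Nat.eq_of_beq_eq_true h) hne
    · rw [hz'] at h; simp at h
    · obtain ⟨⟨⟨h1, h2⟩, h3⟩, h4⟩ := h
      have e1 : bitN dataN1p z = 0 := (bitN_eq_zero_iff _ _).2 h1
      have e2 : bitN dataN1m z = 0 := (bitN_eq_zero_iff _ _).2 h2
      have e3 : bitN dataN2p z = 0 := (bitN_eq_zero_iff _ _).2 h3
      have e4 : bitN dataN2m z = 0 := (bitN_eq_zero_iff _ _).2 h4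
      simp only [nv, e1, e2, e3, e4]; norm_num
  · intro a _
    simp only [Gm, Matrix.add_apply, Matrix.sub_apply, Matrix.smul_apply, smul_eq_mul,
      Matrix.one_apply_eq, Bm, Jm, Matrix.of_apply, adjN_irr a.2]
    norm_num
  · intro a _ b _ hab
    have hG : Gm a b = (adjN a b : ℝ) - 1/4 := by
      simp only [Gm, Matrix.add_apply, Matrix.sub_apply, Matrix.smul_apply, smul_eq_mul,
        Matrix.one_apply_ne hab, Bm, Jm, Matrix.of_apply]
      ring
    constructor
    · intro h; rw [hG, h]; norm_num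
    · intro h
      have h0 : adjN a b = 0 := by
        have := adjN_le a b
        omega
      rw [hG, h0]; norm_num
  · intro S _ hc
    by_contra hno
    have hall : ∀ a ∈ S, ∀ b ∈ S, a ≠ b → adjN a b = 1 := by
      intro a ha b hb hab
      by_contra hn
      exact hno ⟨a, ha, b, hb, hab, hn⟩
    refine no_K6 (S.image (fun v : Fin 416 => (v : ℕ))) ?_ ?_ ?_
    · intro v hv
      obtain ⟨u, _, rfl⟩ := Finset.mem_image.mp hv
      exact u.2
    · rw [Finset.card_image_of_injective _ Fin.val_injective, hc]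
    · intro a ha b hb hab
      obtain ⟨u, hu, rfl⟩ := Finset.mem_image.mp ha
      obtain ⟨v, hv, rfl⟩ := Finset.mem_image.mp hb
      exact hall u hu v hv (fun h => hab (by rw [h]))
  · rw [Mset_card]; norm_num

end Vale.Agent.Lib.P052
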