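import Mathlib

/-!
Generic checkers for the Borsuk example, with their soundness statements. All data are natural
numbers read as bit strings, so that the kernel can evaluate the checks with its fast arithmetic.
-/

namespace Vale.Agent.Lib.P052

/-- One bisection step. -/
def stp (c t s : ℕ) : ℕ := bif Nat.ble (1 <<< (t + s)) c then t + s else t

/-- A set bit of `c`, for `c` with set bits at multiples of 9 below 4608. -/
def hb9 (c : ℕ) : ℕ :=
  stp c (stp c (stp c (stp c (stp c (stp c (stp c (stp c (stp c 0 2304) 1152) 576) 288) 144) 72)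
    36) 18) 9

/-- Run `f` over the bits of `c`, each time on the remaining bits cut down by the row of that bit. -/
def loopC (row : ℕ → ℕ) (f : ℕ → Bool) : ℕ → ℕ → Bool
  | 0, c => Nat.beq c 0
  | fuel + 1, c =>
    bif Nat.beq c 0 then true else
    (f ((c ^^^ (1 <<< hb9 c)) &&& row (hb9 c))) &&
      loopC row f fuel (c ^^^ (1 <<< hb9 c))

/-- No set of `d` bits of `c` is pairwise joined. -/
def noClique (row : ℕ → ℕ) (fuel : ℕ) : ℕ → ℕ → Bool
  | 0, _ => false
  | d + 1, c => loopC row (noClique row fuel d) fuel c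

theorem loopC_sound (row : ℕ → ℕ) (f : ℕ → Bool) (d : ℕ)
    (hf : ∀ c, f c = true → ∀ S : Finset ℕ, S.card = d → (∀ w ∈ S, c.testBit w = true) →
      (∀ u ∈ S, ∀ v ∈ S, u ≠ v → (row v).testBit u = true) → False) :
    ∀ fuel c, loopC row f fuel c = true → ∀ S : Finset ℕ, S.card = d + 1 →
      (∀ w ∈ S, c.testBit w = true) →
      (∀ u ∈ S, ∀ v ∈ S, u ≠ v → (row v).testBit u = true) → False := by
  intro fuel
  induction fuel with
  | zero =>
    intro c hc S hS hw _
    have hc0 : c = 0 := by simpa [loopC] using hc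
    subst hc0
    obtain ⟨w, hw'⟩ : S.Nonempty := by
      rw [← Finset.card_pos]; omega
    simpa using hw w hw'
  | succ fuel ih =>
    intro c hc S hS hw hp
    by_cases hc0 : c = 0
    · subst hc0
      obtain ⟨w, hw'⟩ : S.Nonempty := by
        rw [← Finset.card_pos]; omega
      simpa using hw w hw'
    · have hbeq : Nat.beq c 0 = false := by
        cases c with
        | zero => exact absurd rfl hc0
        | succ n => rfl
      simp only [loopC, hbeq, cond_false, Bool.and_eq_true] at hc
      obtain ⟨h1, h2⟩ := hc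
      by_cases hv : hb9 c ∈ S
      · refine hf _ h1 (S.erase (hb9 c)) (by rw [Finset.card_erase_of_mem hv]; omega) ?_ ?_
        · intro w hw'
          have hne : w ≠ hb9 c := Finset.ne_of_mem_erase hw'
          have hw2 := Finset.mem_of_mem_erase hw'
          have h3 := hw w hw2
          have h4 := hp w hw2 _ hv hne
          simp [Nat.testBit_xor, Nat.one_shiftLeft, h3, h4, hne.symm]
        · intro u hu v hv' huv
          exact hp u (Finset.mem_of_mem_erase hu) v (Finset.mem_of_mem_erase hv') huv
      · refine ih _ h2 S hS ?_ hp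
        intro w hw'
        have hne : w ≠ hb9 c := fun h => hv (h ▸ hw')
        simp [Nat.testBit_xor, Nat.one_shiftLeft, hw w hw', hne.symm]

theorem noClique_sound (row : ℕ → ℕ) (fuel : ℕ) :
    ∀ d c, noClique row fuel d c = true → ∀ S : Finset ℕ, S.card = d →
      (∀ w ∈ S, c.testBit w = true) →
      (∀ u ∈ S, ∀ v ∈ S, u ≠ v → (row v).testBit u = true) → False := by
  intro d
  induction d with
  | zero => intro c hc; simp [noClique] at hc
  | succ d ih =>
    intro c hc S hS hw hp
    exact loopC_sound row (noClique row fuel d) d ih fuel c (by simpa [noClique] using hc) S hS hw hp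

/-- Check a predicate below a bound. -/
def allBelow (p : ℕ → Bool) : ℕ → Bool
  | 0 => true
  | n + 1 => p n && allBelow p n

theorem allBelow_spec (p : ℕ → Bool) : ∀ n, allBelow p n = true → ∀ i, i < n → p i = true := by
  intro n
  induction n with
  | zero => intro _ i hi; omega
  | succ n ih =>
    intro h i hi
    simp only [allBelow, Bool.and_eq_true] at h
    rcases Nat.lt_succ_iff_lt_or_eq.mp hi with h' | h'
    · exact ih h.2 i h'
    · rw [h']; exact h.1

/-- Digit `w` in base 512 of `r`, reduced to its lowest bit. -/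
def bitN (r w : ℕ) : ℕ := bif r.testBit (9 * w) then 1 else 0

theorem bitN_le (r w : ℕ) : bitN r w ≤ 1 := by
  unfold bitN; cases r.testBit (9 * w) <;> simp

theorem bitN_eq_one_iff (r w : ℕ) : bitN r w = 1 ↔ r.testBit (9 * w) = true := by
  unfold bitN; cases r.testBit (9 * w) <;> simp

theorem bitN_eq_zero_iff (r w : ℕ) : bitN r w = 0 ↔ r.testBit (9 * w) = false := by
  unfold bitN; cases r.testBit (9 * w) <;> simp

/-- The number with digits `bitN r w`, for `w < n`. -/
def packAux (r : ℕ) : ℕ → ℕ
  | 0 => 0
  | n + 1 => packAux r n + bitN r n * (1 <<< (9 * n))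

theorem one_shift_eq (n : ℕ) : 1 <<< (9 * n) = 512 ^ n := by
  rw [Nat.one_shiftLeft, pow_mul]; norm_num

theorem packAux_eq (r n : ℕ) :
    packAux r n = ∑ w ∈ Finset.range n, bitN r w * 512 ^ w := by
  induction n with
  | zero => simp [packAux]
  | succ n ih => rw [packAux, ih, Finset.sum_range_succ, one_shift_eq]

/-- The all ones number. -/
def onesN : ℕ → ℕ
  | 0 => 0
  | n + 1 => onesN n + (1 <<< (9 * n))

theorem onesN_eq (n : ℕ) : onesN n = ∑ w ∈ Finset.range n, 512 ^ w := by
  induction n with
  | zero => simp [onesN]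
  | succ n ih => rw [onesN, ih, Finset.sum_range_succ, one_shift_eq]

/-- The sum of the numbers `row k` over the bits `k` of `r`. -/
def sumRow (row : ℕ → ℕ) (r : ℕ) : ℕ → ℕ
  | 0 => 0
  | k + 1 => sumRow row r k + bitN r k * row k

theorem sumRow_eq (row : ℕ → ℕ) (r n : ℕ) :
    sumRow row r n = ∑ k ∈ Finset.range n, bitN r k * row k := by
  induction n with
  | zero => simp [sumRow]
  | succ n ih => rw [sumRow, ih, Finset.sum_range_succ]

/-- The sum of the products of two bit strings. -/
def cntAnd (a b : ℕ) : ℕ → ℕ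
  | 0 => 0
  | n + 1 => cntAnd a b n + bitN a n * bitN b n

theorem cntAnd_eq (a b n : ℕ) :
    cntAnd a b n = ∑ w ∈ Finset.range n, bitN a w * bitN b w := by
  induction n with
  | zero => simp [cntAnd]
  | succ n ih => rw [cntAnd, ih, Finset.sum_range_succ]

theorem sum_lt_pow (c : ℕ → ℕ) (n : ℕ) (hc : ∀ w, w < n → c w < 512) :
    ∑ w ∈ Finset.range n, c w * 512 ^ w < 512 ^ n := by
  induction n with
  | zero => simp
  | succ n ih =>
    rw [Finset.sum_range_succ, pow_succ]
    have h1 := ih (fun w hw => hc w (by omega))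
    have h2 := hc n (by omega)
    nlinarith [pow_pos (show 0 < 512 by norm_num) n]

/-- Digits in base 512 are unique. -/
theorem digit_unique (c e : ℕ → ℕ) (n : ℕ) (hc : ∀ w, w < n → c w < 512)
    (he : ∀ w, w < n → e w < 512)
    (h : ∑ w ∈ Finset.range n, c w * 512 ^ w = ∑ w ∈ Finset.range n, e w * 512 ^ w) :
    ∀ w, w < n → c w = e w := by
  induction n with
  | zero => intro w hw; omega
  | succ n ih =>
    rw [Finset.sum_range_succ, Finset.sum_range_succ] at h
    have hc' := sum_lt_pow c n (fun w hw => hc w (by omega))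
    have he' := sum_lt_pow e n (fun w hw => he w (by omega))
    have hpos : 0 < 512 ^ n := pow_pos (by norm_num) n
    have htop : c n = e n := by
      have h1 : (∑ w ∈ Finset.range n, c w * 512 ^ w + c n * 512 ^ n) / 512 ^ n = c n := by
        rw [Nat.add_mul_div_right _ _ hpos, Nat.div_eq_of_lt hc', zero_add]
      have h2 : (∑ w ∈ Finset.range n, e w * 512 ^ w + e n * 512 ^ n) / 512 ^ n = e n := by
        rw [Nat.add_mul_div_right _ _ hpos, Nat.div_eq_of_lt he', zero_add]
      rw [← h1, ← h2, h]
    have hrest : ∑ w ∈ Finset.range n, c w * 512 ^ w = ∑ w ∈ Finset.range n, e w * 512 ^ w := by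
      rw [htop] at h
      omega
    have ih' := ih (fun w hw => hc w (by omega)) (fun w hw => he w (by omega)) hrest
    intro w hw
    rcases Nat.lt_succ_iff_lt_or_eq.mp hw with h' | h'
    · exact ih' w h'
    · rw [h']; exact htop

end Vale.Agent.Lib.P052
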