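import Vale.Agent.Lib.P052.Kernel

/-!
Consequences of the kernel computations: the graph is strongly regular with no six pairwise
adjacent vertices, and the two eigenvectors.
-/

namespace Vale.Agent.Lib.P052

/-- The adjacency bit. -/
def adjN (u v : ℕ) : ℕ := bitN (rowP u) v

theorem rowP_eq {v : ℕ} (hv : v < 416) :
    rowP v = ∑ w ∈ Finset.range 416, adjN v w * 512 ^ w := by
  have h := allBelow_spec _ 416 check_pack v hv
  have h2 : packAux (rowP v) 416 = rowP v := Nat.eq_of_beq_eq_true h
  show rowP v = ∑ w ∈ Finset.range 416, bitN (rowP v) w * 512 ^ w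
  rw [← packAux_eq]
  exact h2.symm

theorem adjN_le (u v : ℕ) : adjN u v ≤ 1 := bitN_le _ _

theorem adjN_symm {u v : ℕ} (hu : u < 416) (hv : v < 416) : adjN u v = adjN v u := by
  rcases lt_trichotomy u v with h | h | h
  · have h1 := allBelow_spec _ 416 check_sym v hv
    have h2 := allBelow_spec _ v h1 u h
    exact (Nat.eq_of_beq_eq_true h2).symm
  · rw [h]
  · have h1 := allBelow_spec _ 416 check_sym u hu
    have h2 := allBelow_spec _ u h1 v h
    exact Nat.eq_of_beq_eq_true h2

theorem adjN_irr {u : ℕ} (hu : u < 416) : adjN u u = 0 := by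
  have h := allBelow_spec _ 416 check_irr u hu
  exact Nat.eq_of_beq_eq_true h

/-- Swap the order of a double sum written with digits. -/
theorem sum_digits (c : ℕ → ℕ) :
    ∑ k ∈ Finset.range 416, c k * rowP k =
      ∑ w ∈ Finset.range 416, (∑ k ∈ Finset.range 416, c k * adjN k w) * 512 ^ w := by
  have h1 : ∀ k ∈ Finset.range 416, c k * rowP k =
      ∑ w ∈ Finset.range 416, c k * adjN k w * 512 ^ w := by
    intro k hk
    rw [rowP_eq (Finset.mem_range.mp hk), Finset.mul_sum]
    apply Finset.sum_congr rfl
    intro w _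
    ring
  rw [Finset.sum_congr rfl h1, Finset.sum_comm]
  apply Finset.sum_congr rfl
  intro w _
  rw [Finset.sum_mul]

theorem sum_bit_le (a w : ℕ) :
    ∑ k ∈ Finset.range 416, bitN a k * adjN k w ≤ 416 := by
  calc ∑ k ∈ Finset.range 416, bitN a k * adjN k w
      ≤ ∑ _k ∈ Finset.range 416, 1 := by
        apply Finset.sum_le_sum
        intro k _
        have h1 := bitN_le a k
        have h2 := adjN_le k w
        nlinarith
    _ = 416 := by simp

/-- The square of the adjacency matrix. -/
theorem adj_sq {i w : ℕ} (hi : i < 416) (hw : w < 416) :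
    ∑ k ∈ Finset.range 416, adjN i k * adjN k w =
      (if w = i then 80 else 0) + 16 * adjN i w + 20 := by
  have h := allBelow_spec _ 416 check_sq i hi
  have h2 : sumRow rowP (rowP i) 416 = 80 * (1 <<< (9 * i)) + 16 * rowP i + 20 * onesN 416 :=
    Nat.eq_of_beq_eq_true h
  rw [sumRow_eq, one_shift_eq, onesN_eq] at h2
  have h3 : ∑ k ∈ Finset.range 416, bitN (rowP i) k * rowP k = _ :=
    sum_digits (fun k => bitN (rowP i) k)
  rw [h3] at h2
  have h4 : 80 * 512 ^ i + 16 * rowP i + 20 * ∑ w ∈ Finset.range 416, 512 ^ w =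
      ∑ w ∈ Finset.range 416, ((if w = i then 80 else 0) + 16 * adjN i w + 20) * 512 ^ w := by
    conv_lhs => rw [rowP_eq hi]
    simp only [add_mul, Finset.sum_add_distrib, ite_mul, zero_mul, Finset.mul_sum, mul_assoc]
    rw [Finset.sum_ite_eq' (Finset.range 416) i (fun j => 80 * 512 ^ j)]
    simp [Finset.mem_range.mpr hi]
  rw [h4] at h2
  have := digit_unique _ _ 416 (fun w _ => by
      have := sum_bit_le (rowP i) w
      omega) (fun w _ => by
      have := adjN_le i w
      split_ifs <;> omega) h2
  exact this w hw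

/-- The degree. -/
theorem adj_deg {i : ℕ} (hi : i < 416) : ∑ k ∈ Finset.range 416, adjN i k = 100 := by
  have h := adj_sq hi hi
  simp only [if_true, adjN_irr hi] at h
  rw [← show (80 + 16 * 0 + 20 : ℕ) = 100 by norm_num, ← h]
  apply Finset.sum_congr rfl
  intro k hk
  rw [adjN_symm (Finset.mem_range.mp hk) hi]
  have := adjN_le i k
  interval_cases h : adjN i k <;> simp

/-- An eigenvector equation from a check. -/
theorem eig_digits {p m : ℕ} (hp : packAux p 416 = p) (hm : packAux m 416 = m)
    (h : Nat.beq (sumRow rowP p 416 + 20 * m) (sumRow rowP m 416 + 20 * p) = true) :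
    ∀ i, i < 416 → ∑ k ∈ Finset.range 416, bitN p k * adjN k i + 20 * bitN m i =
      ∑ k ∈ Finset.range 416, bitN m k * adjN k i + 20 * bitN p i := by
  have h1 := Nat.eq_of_beq_eq_true h
  rw [sumRow_eq, sumRow_eq, sum_digits, sum_digits] at h1
  have hp' : p = ∑ w ∈ Finset.range 416, bitN p w * 512 ^ w := by
    rw [← packAux_eq]; exact hp.symm
  have hm' : m = ∑ w ∈ Finset.range 416, bitN m w * 512 ^ w := by
    rw [← packAux_eq]; exact hm.symm
  have h2 : ∑ w ∈ Finset.range 416,
        (∑ k ∈ Finset.range 416, bitN p k * adjN k w + 20 * bitN m w) * 512 ^ w =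
      ∑ w ∈ Finset.range 416,
        (∑ k ∈ Finset.range 416, bitN m k * adjN k w + 20 * bitN p w) * 512 ^ w := by
    simp only [add_mul, Finset.sum_add_distrib, mul_assoc, ← Finset.mul_sum]
    rw [← hm', ← hp']
    simpa only [Finset.sum_mul, mul_assoc] using h1
  exact digit_unique _ _ 416 (fun w _ => by
      have := sum_bit_le p w
      have := bitN_le m w
      omega) (fun w _ => by
      have := sum_bit_le m w
      have := bitN_le p w
      omega) h2

/-- The descent argument: no six pairwise adjacent vertices. -/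
theorem no_K6_aux : ∀ n : ℕ, ∀ (S : Finset ℕ) (w : ℕ), w ∈ S → gOf dataD w = n →
    (∀ v ∈ S, v < 416) → S.card = 6 → (∀ a ∈ S, ∀ b ∈ S, a ≠ b → adjN a b = 1) → False := by
  intro n
  induction n using Nat.strong_induction_on with
  | _ n ih =>
    intro S w hw hd hS hc hcl
    have hw416 := hS w hw
    have hdesc := allBelow_spec _ 416 check_desc w hw416
    simp only [Bool.or_eq_true] at hdesc
    -- one step along a map
    have step : ∀ g, homCheck g = true → Nat.blt (gOf dataD (gOf g w)) (gOf dataD w) = true →
        False := by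
      intro g hg hlt
      have hg1 := allBelow_spec _ 416 hg
      have hgr : ∀ u, u < 416 → gOf g u < 416 := by
        intro u hu
        have := hg1 u hu
        simp only [Bool.and_eq_true] at this
        have h3 := this.1
        simpa [Nat.blt_eq] using h3
      have hgh : ∀ u, u < 416 → ∀ v, v < 416 → adjN u v = 1 → adjN (gOf g u) (gOf g v) = 1 := by
        intro u hu v hv huv
        have := hg1 u hu
        simp only [Bool.and_eq_true] at this
        have h3 := allBelow_spec _ 416 this.2 v hv
        have h4 : (rowP u).testBit (9 * v) = true := (bitN_eq_one_iff _ _).1 huv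
        rw [h4] at h3
        exact (bitN_eq_one_iff _ _).2 (by simpa using h3)
      have hinj : Set.InjOn (gOf g) (S : Set ℕ) := by
        intro a ha b hb hab
        by_contra hne
        have h1 := hgh a (hS a ha) b (hS b hb) (hcl a ha b hb hne)
        rw [← hab, adjN_irr (hgr a (hS a ha))] at h1
        omega
      refine ih (gOf dataD (gOf g w)) ?_ (S.image (gOf g)) (gOf g w)
        (Finset.mem_image_of_mem _ hw) rfl ?_ ?_ ?_
      · have := Nat.le_of_ble_eq_true hlt
        omega
      · intro v hv
        obtain ⟨u, hu, rfl⟩ := Finset.mem_image.mp hv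
        exact hgr u (hS u hu)
      · rw [Finset.card_image_of_injOn hinj, hc]
      · intro a ha b hb hab
        obtain ⟨u, hu, rfl⟩ := Finset.mem_image.mp ha
        obtain ⟨v, hv, rfl⟩ := Finset.mem_image.mp hb
        have huv : u ≠ v := fun h => hab (by rw [h])
        exact hgh u (hS u hu) v (hS v hv) (hcl u hu v hv huv)
    rcases hdesc with (h0 | h1) | h2
    · -- vertex 0 is in the set
      have hw0 : w = 0 := Nat.eq_of_beq_eq_true h0
      subst hw0
      refine noClique_sound rowPos 200 5 (rowP 0) check_clique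
        ((S.erase 0).image (fun t => 9 * t)) ?_ ?_ ?_
      · rw [Finset.card_image_of_injective _ (fun a b h => by simpa using h),
          Finset.card_erase_of_mem hw, hc]
      · intro t ht
        obtain ⟨v, hv, rfl⟩ := Finset.mem_image.mp ht
        have hne : (0:ℕ) ≠ v := (Finset.ne_of_mem_erase hv).symm
        exact (bitN_eq_one_iff _ _).1 (hcl 0 hw v (Finset.mem_of_mem_erase hv) hne)
      · intro a ha b hb hab
        obtain ⟨u, hu, rfl⟩ := Finset.mem_image.mp ha
        obtain ⟨v, hv, rfl⟩ := Finset.mem_image.mp hb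
        have huv : u ≠ v := fun h => hab (by rw [h])
        have h3 := hcl v (Finset.mem_of_mem_erase hv) u (Finset.mem_of_mem_erase hu) huv.symm
        have h4 : rowPos (9 * v) = rowP v := by
          unfold rowPos
          rw [Nat.mul_div_cancel_left _ (by norm_num)]
        rw [h4]
        exact (bitN_eq_one_iff _ _).1 h3
    · exact step dataG1 check_hom1 h1
    · exact step dataG2 check_hom2 h2

/-- The graph has no six pairwise adjacent vertices. -/
theorem no_K6 (S : Finset ℕ) (hS : ∀ v ∈ S, v < 416) (hc : S.card = 6)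
    (hcl : ∀ a ∈ S, ∀ b ∈ S, a ≠ b → adjN a b = 1) : False := by
  obtain ⟨w, hw⟩ : S.Nonempty := by
    rw [← Finset.card_pos]; omega
  exact no_K6_aux _ S w hw rfl hS hc hcl

end Vale.Agent.Lib.P052
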