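import Vale.Agent.Lib.P052.Data

/-!
The computations, checked by the kernel.
-/

namespace Vale.Agent.Lib.P052

/-- Each row is a number with digits 0, 1 in base 512. -/
theorem check_pack : allBelow (fun v => Nat.beq (packAux (rowP v) 416) (rowP v)) 416 = true := by
  decide +kernel

/-- The square of the adjacency matrix. -/
theorem check_sq : allBelow (fun i => Nat.beq (sumRow rowP (rowP i) 416)
    (80 * (1 <<< (9 * i)) + 16 * rowP i + 20 * onesN 416)) 416 = true := by
  decide +kernel

/-- Symmetry. -/
theorem check_sym : allBelow (fun u => allBelow (fun v =>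
    Nat.beq (bitN (rowP u) v) (bitN (rowP v) u)) u) 416 = true := by
  decide +kernel

/-- No loops. -/
theorem check_irr : allBelow (fun u => Nat.beq (bitN (rowP u) u) 0) 416 = true := by
  decide +kernel

/-- Image of a vertex under a map stored in base 512. -/
def gOf (g v : ℕ) : ℕ := (g >>> (9 * v)) &&& 511

/-- The map `g` sends edges to edges and stays below 416. -/
def homCheck (g : ℕ) : Bool :=
  allBelow (fun u => Nat.blt (gOf g u) 416 && allBelow (fun v =>
    bif (rowP u).testBit (9 * v) then (rowP (gOf g u)).testBit (9 * gOf g v) else true) 416) 416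

theorem check_hom1 : homCheck dataG1 = true := by decide +kernel

theorem check_hom2 : homCheck dataG2 = true := by decide +kernel

/-- Descent to vertex 0 along the two maps. -/
theorem check_desc : allBelow (fun w => Nat.beq w 0 ||
    Nat.blt (gOf dataD (gOf dataG1 w)) (gOf dataD w) ||
    Nat.blt (gOf dataD (gOf dataG2 w)) (gOf dataD w)) 416 = true := by
  decide +kernel

/-- The row of a bit position. -/
def rowPos (b : ℕ) : ℕ := rowP (b / 9)

/-- The neighbours of vertex 0 hold no five pairwise joined vertices. -/
theorem check_clique : noClique rowPos 200 5 (rowP 0) = true := by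
  decide +kernel

/-- First eigenvector. -/
theorem check_eig1 : Nat.beq (sumRow rowP dataN1p 416 + 20 * dataN1m)
    (sumRow rowP dataN1m 416 + 20 * dataN1p) = true := by
  decide +kernel

/-- Second eigenvector. -/
theorem check_eig2 : Nat.beq (sumRow rowP dataN2p 416 + 20 * dataN2m)
    (sumRow rowP dataN2m 416 + 20 * dataN2p) = true := by
  decide +kernel

/-- The masks are packed. -/
theorem check_p1 : packAux dataN1p 416 = dataN1p := by decide +kernel

theorem check_m1 : packAux dataN1m 416 = dataN1m := by decide +kernel

theorem check_p2 : packAux dataN2p 416 = dataN2p := by decide +kernel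

theorem check_m2 : packAux dataN2m 416 = dataN2m := by decide +kernel

/-- The counts. -/
theorem cnt_p1p1 : cntAnd dataN1p dataN1p 416 = 32 := by decide +kernel

theorem cnt_m1m1 : cntAnd dataN1m dataN1m 416 = 32 := by decide +kernel

theorem cnt_p1m1 : cntAnd dataN1p dataN1m 416 = 0 := by decide +kernel

theorem cnt_m1p1 : cntAnd dataN1m dataN1p 416 = 0 := by decide +kernel

theorem cnt_p2p2 : cntAnd dataN2p dataN2p 416 = 32 := by decide +kernel

theorem cnt_m2m2 : cntAnd dataN2m dataN2m 416 = 32 := by decide +kernel

theorem cnt_p2m2 : cntAnd dataN2p dataN2m 416 = 0 := by decide +kernel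

theorem cnt_m2p2 : cntAnd dataN2m dataN2p 416 = 0 := by decide +kernel

theorem cnt_12a : cntAnd dataN1p dataN2p 416 + cntAnd dataN1m dataN2m 416 = 32 := by decide +kernel

theorem cnt_12b : cntAnd dataN1p dataN2m 416 + cntAnd dataN1m dataN2p 416 = 0 := by decide +kernel

theorem cnt_mask : cntAnd dataMask dataMask 416 = 321 := by decide +kernel

/-- Vertex 0 is in the set, with values 1 and 0 of the eigenvectors; the others vanish. -/
theorem x_mask : dataMask.testBit 0 = true := by decide +kernel

theorem x_p1 : dataN1p.testBit 0 = true := by decide +kernel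

theorem x_m1 : dataN1m.testBit 0 = false := by decide +kernel

theorem x_p2 : dataN2p.testBit 0 = false := by decide +kernel

theorem x_m2 : dataN2m.testBit 0 = false := by decide +kernel

theorem check_Z : allBelow (fun w => Nat.beq w 0 || !dataMask.testBit (9 * w) ||
    (!dataN1p.testBit (9 * w) && !dataN1m.testBit (9 * w) &&
     !dataN2p.testBit (9 * w) && !dataN2m.testBit (9 * w))) 416 = true := by
  decide +kernel

end Vale.Agent.Lib.P052
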